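import Vale.Agent.P022D.Lech.Std

/-!
P022D, Lech trick, part 3: a module with the socle property for a box of size `j` cannot be killed
by an element of small order.
-/

namespace Vale.Agent.P022D.Lech

open Submodule IsLocalRing

/-- the socle property: `(∏ u_i)^(j-1) m ∈ (u_i^j) M` forces `m ∈ (u) M` -/
def Soc {T : Type*} [CommRing T] (M : Type*) [AddCommGroup M] [Module T M] {e : ℕ}
    (u : Fin e → T) (j : ℕ) : Prop :=
  ∀ m : M, (∏ i, u i ^ (j - 1)) • m ∈
      Ideal.span (Set.range fun i => u i ^ j) • (⊤ : Submodule T M) →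
    m ∈ Ideal.span (Set.range u) • (⊤ : Submodule T M)

theorem mon_mem_box {T : Type*} [CommRing T] {e : ℕ} (u : Fin e → T) (j : ℕ) (γ : Ex e) (i : Fin e)
    (h : j ≤ ofDegLex γ i) : mon u γ ∈ Ideal.span (Set.range fun i => u i ^ j) := by
  rw [mon, ← Finset.mul_prod_erase _ _ (Finset.mem_univ i), ← Nat.add_sub_cancel' h, pow_add,
    mul_assoc]
  exact Ideal.mul_mem_right _ _ (Ideal.subset_span ⟨i, rfl⟩)

theorem pow_le_box {T : Type*} [CommRing T] {e : ℕ} (u : Fin e → T) (j : ℕ) :
    Ideal.span (Set.range u) ^ (e * j + 1) ≤ Ideal.span (Set.range fun i => u i ^ j) := by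
  refine (pow_le_span u _).trans (Ideal.span_le.2 ?_)
  rintro _ ⟨γ, hγ, rfl⟩
  have h : ∃ i, j ≤ ofDegLex γ i := by
    by_contra hn
    have h1 : dg γ ≤ ∑ _i : Fin e, j :=
      Finset.sum_le_sum fun i _ => (not_le.1 fun hi => hn ⟨i, hi⟩).le
    rw [Finset.sum_const, Finset.card_univ, Fintype.card_fin, smul_eq_mul] at h1
    have h2 : dg γ = e * j + 1 := hγ
    omega
  obtain ⟨i, hi⟩ := h
  exact mon_mem_box u j γ i hi

theorem Soc.step {T : Type*} [CommRing T] {M : Type*} [AddCommGroup M] [Module T M] {e : ℕ}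
    {u : Fin e → T} {j : ℕ} (h : Soc M u j) (a : Ex e) (ha : ∀ i, ofDegLex a i < j)
    (s : Set (Ex e)) (hs : ∀ γ ∈ s, a < γ) (m : M)
    (hm : mon u a • m ∈ (Ideal.span (Set.range fun i => u i ^ j) ⊔ Ideal.span (mon u '' s)) •
      (⊤ : Submodule T M)) : m ∈ Ideal.span (Set.range u) • (⊤ : Submodule T M) := by
  obtain ⟨δ, hδ⟩ := exists_add (α := a) (β := ex fun _ => j - 1) fun i =>
    Nat.le_sub_one_of_lt (ha i)
  have h1 : ∀ t ∈ Ideal.span (Set.range fun i => u i ^ j) ⊔ Ideal.span (mon u '' s),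
      mon u δ * t ∈ Ideal.span (Set.range fun i => u i ^ j) := by
    intro t ht
    obtain ⟨x, hx, y, hy, rfl⟩ := mem_sup.1 ht
    rw [mul_add]
    refine add_mem (Ideal.mul_mem_left _ _ hx) ?_
    clear ht
    induction hy using Submodule.span_induction with
    | mem y hy =>
      obtain ⟨γ, hγ, rfl⟩ := hy
      obtain ⟨i, hi⟩ := exists_co_lt (hs γ hγ)
      rw [← mon_add]
      refine mon_mem_box u j _ i ?_
      have h2 := congrArg (fun z : Ex e => ofDegLex z i) hδ
      simp only [ex_apply, add_co] at h2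
      have h3 := ha i
      rw [add_co]
      omega
    | zero => rw [mul_zero]; exact zero_mem _
    | add y z _ _ hy hz => rw [mul_add]; exact add_mem hy hz
    | smul r y _ hy => rw [smul_eq_mul, mul_left_comm]; exact Ideal.mul_mem_left _ _ hy
  refine h m ?_
  have e1 : (∏ i, u i ^ (j - 1)) = mon u δ * mon u a := by
    rw [← mon_add, add_comm, ← hδ]
    rfl
  rw [e1, mul_smul]
  generalize mon u a • m = z at hm
  refine Submodule.smul_induction_on hm (fun t ht n _ => ?_) fun x y hx hy => ?_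
  · rw [← mul_smul]
    exact smul_mem_smul (h1 t ht) mem_top
  · rw [smul_add]
    exact add_mem hx hy

theorem exp_le_poly (l c d : ℕ) : ∃ m : ℕ, l * (1 + m * c) ^ d < 2 ^ m := by
  have h := tendsto_pow_const_div_const_pow_of_one_lt d (r := (2 : ℝ)) one_lt_two
  have h1 : (0 : ℝ) < 1 / ((l : ℝ) * (1 + c) ^ d + 1) := by positivity
  obtain ⟨m, hm, hm1⟩ := ((h.eventually (gt_mem_nhds h1)).and (Filter.eventually_ge_atTop 1)).exists
  refine ⟨m, ?_⟩
  rw [div_lt_div_iff₀ (by positivity) (by positivity), one_mul] at hm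
  have h2 : l * (1 + m * c) ^ d ≤ m ^ d * (l * (1 + c) ^ d + 1) := by
    have h3 : (1 + m * c) ^ d ≤ (m * (1 + c)) ^ d := Nat.pow_le_pow_left (by nlinarith) d
    rw [mul_pow] at h3
    nlinarith [Nat.mul_le_mul_left l h3, Nat.zero_le (m ^ d)]
  refine lt_of_le_of_lt h2 ?_
  exact_mod_cast hm

variable {B T M : Type*} [CommRing B] [CommRing T] [Algebra B T] [AddCommGroup M] [Module B M]
  [Module T M] [IsScalarTower B T M]

theorem box_chain [IsNoetherianRing B] [Module.Finite B M] (n : Ideal B) {e : ℕ} {u : Fin e → T}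
    {j : ℕ} (h : Soc M u j) (s : Finset (Ex e)) (hs : ∀ a ∈ s, ∀ i, ofDegLex a i < j) :
    ∃ c : ℕ, ∀ K : ℕ, s.card * Module.length B (M ⧸
        ((Ideal.span (Set.range u) • (⊤ : Submodule T M)).restrictScalars B ⊔ n ^ K • ⊤)) +
      Module.length B (M ⧸ (((Ideal.span (Set.range fun i => u i ^ j) ⊔
        Ideal.span (mon u '' s)) • (⊤ : Submodule T M)).restrictScalars B ⊔ n ^ K • ⊤)) ≤
      Module.length B (M ⧸ ((Ideal.span (Set.range fun i => u i ^ j) •
        (⊤ : Submodule T M)).restrictScalars B ⊔ n ^ (K + c) • ⊤)) := by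
  induction s using Finset.induction_on_min with
  | empty =>
    refine ⟨0, fun K => ?_⟩
    rw [Finset.card_empty, Nat.cast_zero, zero_mul, zero_add, Finset.coe_empty, Set.image_empty,
      Ideal.span_empty, sup_bot_eq, add_zero]
  | insert a s ha ih =>
    obtain ⟨c, hc⟩ := ih fun γ hγ => hs γ (Finset.mem_insert_of_mem hγ)
    let φ : M →ₗ[B] M := (LinearMap.lsmul T M (mon u a)).restrictScalars B
    let N : Submodule B M := ((Ideal.span (Set.range fun i => u i ^ j) ⊔
        Ideal.span (mon u '' s)) • (⊤ : Submodule T M)).restrictScalars B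
    obtain ⟨c', hc'⟩ := artinRees n φ N
    refine ⟨c' + c, fun K => ?_⟩
    have hK : n ^ (K + c') • (⊤ : Submodule B M) ≤ n ^ K • ⊤ :=
      smul_mono (Ideal.pow_le_pow_right (Nat.le_add_right K c')) le_rfl
    have h1 : (N ⊔ n ^ (K + c') • ⊤).comap φ ≤
        (Ideal.span (Set.range u) • (⊤ : Submodule T M)).restrictScalars B ⊔ n ^ K • ⊤ :=
      (hc' K).trans (sup_le_sup_right
        (fun m hm => h.step a (hs a (Finset.mem_insert_self a s)) s ha m hm) _)
    have h2 : (N ⊔ n ^ (K + c') • ⊤) ⊔ LinearMap.range φ ≤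
        ((Ideal.span (Set.range fun i => u i ^ j) ⊔
          Ideal.span (mon u '' (insert a s : Finset (Ex e)))) •
            (⊤ : Submodule T M)).restrictScalars B ⊔ n ^ K • ⊤ := by
      refine sup_le (sup_le_sup ?_ hK) (le_sup_of_le_left ?_)
      · have h4 : Ideal.span (mon u '' (s : Set (Ex e))) ≤
            Ideal.span (mon u '' (insert a s : Finset (Ex e))) :=
          Ideal.span_mono (Set.image_mono (Finset.coe_subset.2 (Finset.subset_insert a s)))
        have h5 := smul_mono (sup_le_sup_left h4 (Ideal.span (Set.range fun i => u i ^ j)))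
          (le_refl (⊤ : Submodule T M))
        exact fun m hm => h5 hm
      · rintro _ ⟨m, rfl⟩
        have h4 : mon u a ∈ Ideal.span (Set.range fun i => u i ^ j) ⊔
            Ideal.span (mon u '' (insert a s : Finset (Ex e))) :=
          mem_sup_right (Ideal.subset_span
            ⟨a, Finset.mem_coe.2 (Finset.mem_insert_self a s), rfl⟩)
        exact smul_mem_smul (N := (⊤ : Submodule T M)) h4 (mem_top (x := m))
    have h3 := (add_le_add (len_anti h1) (len_anti h2)).trans
      (len_step φ (N ⊔ n ^ (K + c') • ⊤)).ge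
    rw [Finset.card_insert_of_notMem fun h' => lt_irrefl a (ha a h'), Nat.cast_add, Nat.cast_one,
      add_mul, one_mul, add_assoc, ← add_assoc K]
    refine le_trans (add_le_add (mul_le_mul_right (len_anti (sup_le_sup_left hK _)) _) h3) ?_
    exact hc (K + c')

theorem ann_pow (a : Ideal T) (b : Ideal B)
    (hb : ∀ r ∈ b, ∀ m : M, r • m ∈ a • (⊤ : Submodule T M)) (k : ℕ) :
    b ^ k • (⊤ : Submodule B M) ≤ (a ^ k • (⊤ : Submodule T M)).restrictScalars B := by
  induction k with
  | zero =>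
    intro m _
    rw [pow_zero, Ideal.one_eq_top, Submodule.top_smul]
    exact mem_top
  | succ k ih =>
    rw [pow_succ', Submodule.mul_smul]
    refine smul_le.2 fun r hr m hm => ?_
    have h1 : m ∈ a ^ k • (⊤ : Submodule T M) := ih hm
    change r • m ∈ a ^ (k + 1) • (⊤ : Submodule T M)
    clear hm
    refine Submodule.smul_induction_on h1 (fun t ht x _ => ?_) fun x y hx hy => ?_
    · rw [smul_comm, pow_succ, Submodule.mul_smul]
      exact smul_mem_smul ht (hb r hr x)
    · rw [smul_add]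
      exact add_mem hx hy

/-- the core inequality: all constants are independent of `M`, `T`, `u` -/
theorem core [IsNoetherianRing B] [IsLocalRing B] {d : ℕ} (X : Fin d → B)
    (hX : Ideal.span (Set.range X) = maximalIdeal B) (f : B) (o : ℕ)
    (hf : f ∉ maximalIdeal B ^ (o + 1)) {l : ℕ} (g : Fin l → M)
    (hg : span B (Set.range g) = ⊤) (hfM : ∀ m : M, f • m = 0) {e : ℕ} (u : Fin e → T) {j : ℕ}
    (hj : 0 < j) (h : Soc M u j) (h0 : Ideal.span (Set.range u) • (⊤ : Submodule T M) ≠ ⊤) :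
    j ^ e ≤ 2 * (l * (o * (e * j + 1) ^ (d - 1) * l)) := by
  classical
  have : Module.Finite B M := ⟨⟨(Set.finite_range g).toFinset, by simpa using hg⟩⟩
  let N0 : Submodule B M := (Ideal.span (Set.range u) • (⊤ : Submodule T M)).restrictScalars B
  let b : Ideal B := LinearMap.ker (LinearMap.toSpanSingleton B (Fin l → M ⧸ N0)
    fun i => Submodule.Quotient.mk (g i))
  have hb1 : ∀ r : B, (∀ i, r • g i ∈ N0) → r ∈ b := by
    intro r hr
    refine LinearMap.mem_ker.2 (funext fun i => ?_)
    exact (Submodule.Quotient.mk_eq_zero N0).2 (hr i)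
  have hb2 : ∀ r ∈ b, ∀ m : M, r • m ∈ Ideal.span (Set.range u) • (⊤ : Submodule T M) := by
    intro r hr m
    have hm : m ∈ span B (Set.range g) := hg ▸ mem_top
    obtain ⟨c, rfl⟩ := (mem_span_range_iff_exists_fun B).1 hm
    change _ ∈ N0
    rw [Finset.smul_sum]
    refine sum_mem fun i _ => ?_
    rw [smul_comm]
    exact N0.smul_mem _ ((Submodule.Quotient.mk_eq_zero N0).1 (congrFun (LinearMap.mem_ker.1 hr) i))
  have hfin : ∀ K, Module.length B (M ⧸ (N0 ⊔ maximalIdeal B ^ K • ⊤)) ≤ ((l * K ^ d : ℕ) : ℕ∞) := by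
    intro K
    rw [Nat.cast_mul]
    exact (len_gen g hg _ _ le_sup_right).trans (mul_le_mul_right (len_pow_le X hX K) _)
  have hH : ∀ K, ∃ k : ℕ, Module.length B (M ⧸ (N0 ⊔ maximalIdeal B ^ K • ⊤)) = k := fun K =>
    ⟨_, (ENat.natCast_toNat (ne_top_of_le_ne_top (ENat.natCast_ne_top _) (hfin K))).symm⟩
  choose H hH using hH
  have hH1 : 1 ≤ H 1 := by
    by_contra hn
    have h1 : H 1 = 0 := by omega
    have h2 := hH 1
    rw [h1, Nat.cast_zero, Module.length_eq_zero_iff, Submodule.Quotient.subsingleton_iff,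
      pow_one] at h2
    have h3 : (⊤ : Submodule B M) ≤ N0 :=
      le_of_le_smul_of_le_jacobson_bot (Module.finite_def.1 inferInstance)
        (IsLocalRing.jacobson_eq_maximalIdeal ⊥ bot_ne_top).ge h2.ge
    exact h0 (top_le_iff.1 fun m _ => h3 mem_top)
  let s : Finset (Ex e) := (Fintype.piFinset fun _ : Fin e => Finset.range j).image ex
  have hs : s.card = j ^ e := by
    rw [Finset.card_image_of_injective _ fun a a' haa => funext fun i =>
      congrArg (fun z : Ex e => ofDegLex z i) haa, Fintype.card_piFinset]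
    simp
  obtain ⟨c, hc⟩ := box_chain (maximalIdeal B) h s (by
    intro a ha i
    obtain ⟨a', ha', rfl⟩ := Finset.mem_image.1 ha
    exact Finset.mem_range.1 (Fintype.mem_piFinset.1 ha' i))
  obtain ⟨c', hc'⟩ := len_ann g (maximalIdeal B) b N0 hb1
  have key : ∀ K, j ^ e * H K ≤ l * (o * (e * j + 1) ^ (d - 1) * l) * H (K + (c + c')) := by
    intro K
    have h1 := le_self_add.trans (hc K)
    have h2 : ((Ideal.span {f} ⊔ b ^ (e * j + 1)) ⊔ maximalIdeal B ^ (K + c)) •
        (⊤ : Submodule B M) ≤ (Ideal.span (Set.range fun i => u i ^ j) •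
          (⊤ : Submodule T M)).restrictScalars B ⊔ maximalIdeal B ^ (K + c) • ⊤ := by
      rw [sup_smul, sup_smul]
      refine sup_le_sup_right (sup_le ?_ ?_) _
      · refine smul_le.2 fun r hr m _ => ?_
        obtain ⟨r', rfl⟩ := Ideal.mem_span_singleton'.1 hr
        rw [mul_smul, hfM, smul_zero]
        exact zero_mem _
      · exact (ann_pow _ b hb2 _).trans fun m hm => smul_mono (pow_le_box u j) le_rfl hm
    have h3 := h1.trans ((len_gen g hg _ _ h2).trans (mul_le_mul_right
      ((lech X hX f o hf b (e * j + 1) (K + c) (Nat.succ_pos _)).trans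
        (mul_le_mul_right (hc' (K + c)) _)) _))
    rw [hs, hH, hH, add_assoc] at h3
    have h4 : j ^ e * H K ≤ l * (o * (e * j + 1) ^ (d - 1) * (l * H (K + (c + c')))) := by
      exact_mod_cast h3
    refine h4.trans (le_of_eq ?_)
    ring
  by_contra hn
  have hC : 0 < l * (o * (e * j + 1) ^ (d - 1) * l) := by
    refine Nat.pos_of_ne_zero fun h1 => ?_
    have h2 := key 1
    rw [h1, zero_mul] at h2
    exact absurd h2 (not_le.2 (Nat.mul_pos (Nat.pow_pos hj) hH1))
  have h2 : ∀ K, 2 * H K ≤ H (K + (c + c')) := by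
    intro K
    refine Nat.le_of_mul_le_mul_left (le_trans ?_ (key K)) hC
    rw [← mul_assoc, mul_comm _ 2]
    exact Nat.mul_le_mul_right _ (not_le.1 hn).le
  have h3 : ∀ m, 2 ^ m ≤ H (1 + m * (c + c')) := by
    intro m
    induction m with
    | zero => simpa using hH1
    | succ m ih =>
      rw [pow_succ', add_mul, one_mul, ← add_assoc]
      exact (Nat.mul_le_mul_left 2 ih).trans (h2 _)
  obtain ⟨m, hm⟩ := exp_le_poly l (c + c') d
  have h4 := hfin (1 + m * (c + c'))
  rw [hH, Nat.cast_le] at h4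
  exact absurd ((h3 m).trans h4) (not_le.2 hm)

end Vale.Agent.P022D.Lech
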