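import Vale.Agent.P022D.Lech.Core

/-!
P022D, Lech trick, part 4: the limit of the annihilators meets `A` only in `0`.
-/

namespace Vale.Agent.P022D.Lech

open Submodule IsLocalRing

section Loc

variable {T M : Type*} [CommRing T] [AddCommGroup M] [Module T M] (S : Submonoid T)

theorem loc_mem_iff (I : Ideal T) (m : M) (s : S) :
    LocalizedModule.mk m s ∈ I.map (algebraMap T (Localization S)) •
        (⊤ : Submodule (Localization S) (LocalizedModule S M)) ↔
      ∃ t : S, (t : T) • m ∈ I • (⊤ : Submodule T M) := by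
  have e : I.map (algebraMap T (Localization S)) •
      (⊤ : Submodule (Localization S) (LocalizedModule S M)) =
      (I • (⊤ : Submodule T M)).localized' (Localization S) S (LocalizedModule.mkLinearMap S M) := by
    rw [Submodule.localized'_smul, Ideal.localized'_eq_map, Submodule.localized'_top]
  rw [e, Submodule.mem_localized']
  constructor
  · rintro ⟨m', hm', s', h⟩
    rw [← IsLocalizedModule.mk_eq_mk', LocalizedModule.mk_eq] at h
    obtain ⟨v, hv⟩ := h
    refine ⟨v * s', ?_⟩
    have e1 : ((v * s' : S) : T) • m = ((v * s : S) : T) • m' := by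
      rw [Submonoid.coe_mul, Submonoid.coe_mul, mul_smul, mul_smul]
      exact hv.symm
    rw [e1]
    exact smul_mem _ _ hm'
  · rintro ⟨t, ht⟩
    refine ⟨_, ht, t * s, ?_⟩
    rw [← IsLocalizedModule.mk_eq_mk']
    exact LocalizedModule.mk_cancel_common_left t s m

theorem Soc.loc {e : ℕ} {u : Fin e → T} {j : ℕ} (h : Soc M u j) :
    Soc (LocalizedModule S M) (fun i => algebraMap T (Localization S) (u i)) j := by
  have e1 : Ideal.span (Set.range fun i => algebraMap T (Localization S) (u i)) =
      (Ideal.span (Set.range u)).map (algebraMap T (Localization S)) := by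
    rw [Ideal.map_span, ← Set.range_comp]
    rfl
  have e2 : Ideal.span (Set.range fun i => algebraMap T (Localization S) (u i) ^ j) =
      (Ideal.span (Set.range fun i => u i ^ j)).map (algebraMap T (Localization S)) := by
    rw [Ideal.map_span, ← Set.range_comp]
    simp only [Function.comp_def, map_pow]
  intro x hx
  induction x using LocalizedModule.induction_on with
  | _ m s =>
    have e3 : (∏ i, algebraMap T (Localization S) (u i) ^ (j - 1)) • LocalizedModule.mk m s =
        LocalizedModule.mk ((∏ i, u i ^ (j - 1)) • m) s := by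
      rw [← LocalizedModule.smul'_mk, ← algebraMap_smul (Localization S) (∏ i, u i ^ (j - 1)),
        map_prod]
      simp only [map_pow]
    rw [e3, e2, loc_mem_iff] at hx
    obtain ⟨t, ht⟩ := hx
    rw [e1, loc_mem_iff]
    rw [smul_comm] at ht
    exact ⟨t, h _ ht⟩

end Loc

/-- the inequality at one level, at a prime of `A` -/
theorem core_loc {A P T M : Type*} [CommRing A] [IsNoetherianRing A] [CommRing P] [Algebra A P]
    [CommRing T] [Algebra P T] [AddCommGroup M] [Module P M] [Module T M] [IsScalarTower P T M]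
    (P0 : Ideal P) [P0.IsPrime] (p : Ideal A) [p.IsPrime] (hp : P0.comap (algebraMap A P) ≤ p)
    {d : ℕ} (X : Fin d → Localization.AtPrime p)
    (hX : Ideal.span (Set.range X) = maximalIdeal (Localization.AtPrime p))
    {l0 : ℕ} (v : Fin l0 → P) (hv : span A (Set.range v) = ⊤)
    {l : ℕ} (g : Fin l → M) (hg : span P (Set.range g) = ⊤) (f : A) (o : ℕ)
    (hf : algebraMap A (Localization.AtPrime p) f ∉ maximalIdeal (Localization.AtPrime p) ^ (o + 1))
    (hfM : ∀ m : M, algebraMap A P f • m = 0) {e : ℕ} (u : Fin e → T) {j : ℕ} (hj : 0 < j)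
    (h : Soc M u j)
    (h0 : ∀ r : P, (∀ m : M, r • m ∈ Ideal.span (Set.range u) • (⊤ : Submodule T M)) → r ∈ P0) :
    j ^ e ≤ 2 * (l0 * l * (o * (e * j + 1) ^ (d - 1) * (l0 * l))) := by
  let φ : A →+* T := (algebraMap P T).comp (algebraMap A P)
  let S : Submonoid T := p.primeCompl.map φ
  let ψ : Localization.AtPrime p →+* Localization S :=
    IsLocalization.map (M := p.primeCompl) (T := S) (Localization S) φ
      (Submonoid.le_comap_map p.primeCompl)
  have hψ : ∀ a : A, ψ (algebraMap A _ a) = algebraMap T (Localization S) (φ a) := fun a =>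
    IsLocalization.map_eq _ a
  let : Algebra (Localization.AtPrime p) (Localization S) := ψ.toAlgebra
  let : Module (Localization.AtPrime p) (LocalizedModule S M) := Module.compHom _ ψ
  have : IsScalarTower (Localization.AtPrime p) (Localization S) (LocalizedModule S M) :=
    ⟨fun b t x => mul_smul (ψ b) t x⟩
  have hs : ∀ (a : A) (m : M) (s : S), algebraMap A (Localization.AtPrime p) a •
      LocalizedModule.mk m s = LocalizedModule.mk (algebraMap A P a • m) s := by
    intro a m s
    change ψ _ • LocalizedModule.mk m s = _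
    rw [hψ, algebraMap_smul, LocalizedModule.smul'_mk, ← algebraMap_smul T (algebraMap A P a) m]
    rfl
  let g' : Fin (l0 * l) → LocalizedModule S M := fun x =>
    LocalizedModule.mk (v (finProdFinEquiv.symm x).1 • g (finProdFinEquiv.symm x).2) 1
  have hg1 : ∀ m : M, LocalizedModule.mk m (1 : S) ∈
      span (Localization.AtPrime p) (Set.range g') := by
    intro m
    have hm : m ∈ span P (Set.range g) := hg ▸ mem_top
    obtain ⟨c, rfl⟩ := (mem_span_range_iff_exists_fun P).1 hm
    change LocalizedModule.mkLinearMap S M _ ∈ _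
    rw [map_sum]
    refine sum_mem fun i _ => ?_
    have hc : c i ∈ span A (Set.range v) := hv ▸ mem_top
    obtain ⟨c', hc'⟩ := (mem_span_range_iff_exists_fun A).1 hc
    rw [← hc', Finset.sum_smul, map_sum]
    refine sum_mem fun a _ => ?_
    rw [Algebra.smul_def, mul_smul, LocalizedModule.mkLinearMap_apply, ← hs]
    refine smul_mem _ _ (subset_span ⟨finProdFinEquiv (a, i), ?_⟩)
    simp only [g', Equiv.symm_apply_apply]
  have hg' : span (Localization.AtPrime p) (Set.range g') = ⊤ := by
    refine top_le_iff.1 fun x _ => ?_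
    induction x using LocalizedModule.induction_on with
    | _ m s =>
      obtain ⟨_, s0, hs0, rfl⟩ := s
      obtain ⟨w, hw⟩ := (IsLocalization.map_units (Localization.AtPrime p)
        (⟨s0, hs0⟩ : p.primeCompl)).exists_left_inv
      have e1 : algebraMap A (Localization.AtPrime p) s0 •
          LocalizedModule.mk m (⟨φ s0, s0, hs0, rfl⟩ : S) = LocalizedModule.mk m (1 : S) := by
        rw [hs, ← algebraMap_smul T (algebraMap A P s0) m]
        exact LocalizedModule.mk_cancel (⟨φ s0, s0, hs0, rfl⟩ : S) m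
      have e2 : LocalizedModule.mk m (⟨φ s0, s0, hs0, rfl⟩ : S) =
          w • LocalizedModule.mk m (1 : S) := by
        rw [← e1, ← mul_smul, hw, one_smul]
      rw [e2]
      exact smul_mem _ _ (hg1 m)
  refine core X hX _ o hf g' hg' (fun x => ?_) _ hj (h.loc S) fun h1 => ?_
  · induction x using LocalizedModule.induction_on with
    | _ m s => rw [hs, hfM, LocalizedModule.zero_mk]
  · have e1 : Ideal.span (Set.range fun i => algebraMap T (Localization S) (u i)) =
        (Ideal.span (Set.range u)).map (algebraMap T (Localization S)) := by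
      rw [Ideal.map_span, ← Set.range_comp]
      rfl
    have h2 : ∀ i, ∃ s0 ∈ p.primeCompl, algebraMap A P s0 • g i ∈
        Ideal.span (Set.range u) • (⊤ : Submodule T M) := by
      intro i
      obtain ⟨⟨_, s0, hs0, rfl⟩, ht⟩ := (loc_mem_iff S (Ideal.span (Set.range u)) (g i) 1).1
        (by rw [← e1, h1]; exact mem_top)
      refine ⟨s0, hs0, ?_⟩
      rw [← algebraMap_smul T (algebraMap A P s0)]
      exact ht
    choose s0 hs0 h3 using h2
    have h4 : (∏ i, s0 i) ∈ p.primeCompl := prod_mem fun i _ => hs0 i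
    refine h4 (hp (h0 _ fun m => ?_))
    have hm : m ∈ span P (Set.range g) := hg ▸ mem_top
    obtain ⟨c, rfl⟩ := (mem_span_range_iff_exists_fun P).1 hm
    rw [Finset.smul_sum]
    refine sum_mem fun i _ => ?_
    rw [← Finset.prod_erase_mul _ _ (Finset.mem_univ i), map_mul, smul_comm, mul_smul, ← mul_smul,
      ← algebraMap_smul T (c i * _)]
    exact smul_mem _ _ (h3 i)

/-- norm of an element of `P` close to `f` -/
theorem exists_norm {A P : Type*} [CommRing A] [CommRing P] [Algebra A P] [Module.Finite A P]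
    (I : Ideal A) (f : A) (i : P) (h : algebraMap A P f - i ∈ I.map (algebraMap A P)) :
    ∃ f' : A, f' - f ^ (⊤ : Submodule A P).spanFinrank ∈ I ∧ i ∣ algebraMap A P f' := by
  obtain ⟨q, hq, hd, hc, h0⟩ :=
    LinearMap.exists_monic_and_natDegree_eq_and_coeff_mem_pow_and_aeval_eq_zero A
      (Algebra.lmul A P (algebraMap A P f - i)) I (by
        rintro _ ⟨x, rfl⟩
        rw [Ideal.smul_top_eq_map]
        exact Ideal.mul_mem_right x _ h)
  refine ⟨q.eval f, ?_, ?_⟩
  · rw [Polynomial.eval_eq_sum_range, Finset.sum_range_succ, ← hd, Polynomial.coeff_natDegree,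
      hq.leadingCoeff, one_mul, add_sub_cancel_right]
    refine sum_mem fun k hk => Ideal.mul_mem_right _ _ ?_
    exact Ideal.pow_le_self (Nat.sub_ne_zero_of_lt (Finset.mem_range.1 hk)) (hc k)
  · rw [Polynomial.aeval_algHom_apply] at h0
    have h1 : Polynomial.aeval (algebraMap A P f - i) q = 0 :=
      Algebra.lmul_injective (R := A) (h0.trans (map_zero _).symm)
    have h2 := Polynomial.sub_dvd_eval_sub (algebraMap A P f) (algebraMap A P f - i)
      (q.map (algebraMap A P))
    rw [Polynomial.eval_map_algebraMap, Polynomial.eval_map_algebraMap, h1, sub_zero,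
      sub_sub_cancel, Polynomial.aeval_algebraMap_apply, Polynomial.coe_aeval_eq_eval] at h2
    exact h2

theorem exists_not_mem_sup {A : Type*} [CommRing A] [IsNoetherianRing A] [IsLocalRing A]
    (J : Ideal A) (F : A) (h : F ∉ J) : ∃ k : ℕ, F ∉ J ⊔ maximalIdeal A ^ k := by
  by_contra hn
  have h1 : J.mkQ F ∈ (⨅ k : ℕ, maximalIdeal A ^ k • (⊤ : Submodule A (A ⧸ J))) := by
    refine (mem_iInf _).2 fun k => ?_
    obtain ⟨a, ha, b, hb, hab⟩ := mem_sup.1 (not_not.1 fun hk => hn ⟨k, hk⟩)
    rw [← hab, map_add, mkQ_apply, (Submodule.Quotient.mk_eq_zero J).2 ha, zero_add,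
      ← mul_one b, ← smul_eq_mul, map_smul]
    exact smul_mem_smul hb mem_top
  rw [Ideal.iInf_pow_smul_eq_bot_of_isLocalRing _ (maximalIdeal.isMaximal A).ne_top, mem_bot,
    mkQ_apply, Submodule.Quotient.mk_eq_zero] at h1
  exact h h1

theorem exists_big (C e d : ℕ) (hd : d ≤ e) (he : 0 < e) :
    ∃ j : ℕ, 0 < j ∧ C * (e * j + 1) ^ (d - 1) < j ^ e := by
  obtain ⟨e, rfl⟩ := Nat.exists_eq_succ_of_ne_zero he.ne'
  refine ⟨C * (e + 2) ^ e + 1, Nat.succ_pos _, ?_⟩
  set j := C * (e + 2) ^ e + 1
  have hj : 1 ≤ j := Nat.le_add_left 1 _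
  have h1 : (e.succ * j + 1) ^ (d - 1) ≤ ((e + 2) * j) ^ e :=
    (Nat.pow_le_pow_right (Nat.succ_pos _) (by omega)).trans
      (Nat.pow_le_pow_left (by rw [Nat.succ_eq_add_one]; nlinarith) e)
  refine lt_of_le_of_lt (Nat.mul_le_mul_left C h1) ?_
  rw [mul_pow, ← mul_assoc, pow_succ']
  exact Nat.mul_lt_mul_of_pos_right (Nat.lt_succ_self _) (Nat.pow_pos (Nat.succ_pos _))

/-- **Faithfulness over `A` in the limit.**  `P` is finite over the local domain `A`; the modules
`M n` have `l` generators over `P`, `P0` is in the support of every `M n / (u n)`, the local ring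
of `A` at a prime above `P0 ∩ A` has at most `e` generators. -/
theorem faith {A P : Type*} [CommRing A] [IsDomain A] [IsNoetherianRing A] [IsLocalRing A]
    [CommRing P] [Algebra A P] [Module.Finite A P] (mP : Ideal P) (c : ℕ)
    (hc : mP ^ c ≤ (maximalIdeal A).map (algebraMap A P))
    (P0 : Ideal P) [P0.IsPrime] (p : Ideal A) [p.IsPrime] (hp : P0.comap (algebraMap A P) ≤ p)
    {d e : ℕ} (X : Fin d → Localization.AtPrime p)
    (hX : Ideal.span (Set.range X) = maximalIdeal (Localization.AtPrime p)) (hd : d ≤ e)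
    (he : 0 < e) {ι : Type*} (T M : ι → Type*) [∀ n, CommRing (T n)] [∀ n, Algebra P (T n)]
    [∀ n, AddCommGroup (M n)] [∀ n, Module P (M n)] [∀ n, Module (T n) (M n)]
    [∀ n, IsScalarTower P (T n) (M n)] (u : ∀ n, Fin e → T n) {l : ℕ} (g : ∀ n, Fin l → M n)
    (hg : ∀ n, span P (Set.range (g n)) = ⊤)
    (h0 : ∀ n (r : P), (∀ m : M n, r • m ∈
      Ideal.span (Set.range (u n)) • (⊤ : Submodule (T n) (M n))) → r ∈ P0)
    (f : A) (hf : ∀ j k : ℕ, ∃ n, Soc (M n) (u n) j ∧
      ∃ i : P, (∀ m : M n, i • m = 0) ∧ algebraMap A P f - i ∈ mP ^ k) : f = 0 := by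
  by_contra hf0
  obtain ⟨l0, v, hv⟩ := Module.Finite.exists_fin (R := A) (M := P)
  have hF : algebraMap A (Localization.AtPrime p) (f ^ (⊤ : Submodule A P).spanFinrank) ≠ 0 := by
    rw [Ne, map_eq_zero_iff _ (IsLocalization.injective _ p.primeCompl_le_nonZeroDivisors)]
    exact pow_ne_zero _ hf0
  obtain ⟨o, ho⟩ := exists_not_mem_sup (⊥ : Ideal (Localization.AtPrime p)) _ hF
  rw [bot_sup_eq] at ho
  have ho' : f ^ (⊤ : Submodule A P).spanFinrank ∉
      (maximalIdeal (Localization.AtPrime p) ^ (o + 1)).comap (algebraMap A _) :=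
    fun h => ho (Ideal.pow_le_pow_right (Nat.le_succ o) h)
  obtain ⟨k, hk⟩ := exists_not_mem_sup _ _ ho'
  obtain ⟨j, hj, hjC⟩ := exists_big (2 * (l0 * l * (o * (l0 * l)))) e d hd he
  obtain ⟨n, hS, i, hi, hik⟩ := hf j (c * k)
  have h1 : algebraMap A P f - i ∈ (maximalIdeal A ^ k).map (algebraMap A P) := by
    rw [Ideal.map_pow]
    rw [pow_mul] at hik
    exact Ideal.pow_right_mono hc k hik
  obtain ⟨f', hf', w, hw⟩ := exists_norm _ f i h1
  have h2 := core_loc P0 p hp X hX v hv (g n) (hg n) f' o (fun h => hk ?_) (fun m => ?_) (u n) hj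
    hS (h0 n)
  · refine absurd (lt_of_le_of_lt (le_of_eq ?_) hjC) (not_lt.2 h2)
    ring
  · have e1 : f ^ (⊤ : Submodule A P).spanFinrank =
        f' - (f' - f ^ (⊤ : Submodule A P).spanFinrank) := by ring
    rw [e1]
    exact sub_mem (mem_sup_left h) (mem_sup_right hf')
  · rw [hw, mul_comm, mul_smul, hi, smul_zero]

end Vale.Agent.P022D.Lech
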