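import Mathlib

/-!
P022D, Lech trick, part 1: lengths of quotients (exact sequence, Artin-Rees, generators).
-/

namespace Vale.Agent.P022D.Lech

open Submodule

variable {B : Type*} [CommRing B]

/-- the length of `M / N` along a linear map into `M` -/
theorem len_step {M M' : Type*} [AddCommGroup M] [Module B M] [AddCommGroup M'] [Module B M']
    (φ : M' →ₗ[B] M) (N : Submodule B M) :
    Module.length B (M ⧸ N) =
      Module.length B (M' ⧸ N.comap φ) + Module.length B (M ⧸ (N ⊔ LinearMap.range φ)) := by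
  refine Module.length_eq_add_of_exact (mapQ (N.comap φ) N φ le_rfl)
    (mapQ N (N ⊔ LinearMap.range φ) LinearMap.id (fun x hx => mem_sup_left hx)) ?_ ?_ ?_
  · rw [← LinearMap.ker_eq_bot, eq_bot_iff]
    intro x hx
    obtain ⟨y, rfl⟩ := Submodule.Quotient.mk_surjective _ x
    rw [LinearMap.mem_ker, mapQ_apply, Submodule.Quotient.mk_eq_zero] at hx
    rw [mem_bot, Submodule.Quotient.mk_eq_zero]
    exact hx
  · intro x
    obtain ⟨y, rfl⟩ := Submodule.Quotient.mk_surjective _ x
    exact ⟨Submodule.Quotient.mk y, rfl⟩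
  · intro x
    obtain ⟨y, rfl⟩ := Submodule.Quotient.mk_surjective _ x
    rw [mapQ_apply, Submodule.Quotient.mk_eq_zero, LinearMap.id_apply]
    constructor
    · intro h
      obtain ⟨a, ha, b, ⟨c, rfl⟩, rfl⟩ := mem_sup.1 h
      refine ⟨Submodule.Quotient.mk c, ?_⟩
      rw [mapQ_apply, Submodule.Quotient.eq]
      simpa using ha
    · rintro ⟨z, hz⟩
      obtain ⟨c, rfl⟩ := Submodule.Quotient.mk_surjective _ z
      rw [mapQ_apply, Submodule.Quotient.eq] at hz
      have e : y = -(φ c - y) + φ c := by abel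
      rw [e]
      exact add_mem (mem_sup_left (neg_mem hz)) (mem_sup_right ⟨c, rfl⟩)

theorem len_anti {M : Type*} [AddCommGroup M] [Module B M] {N N' : Submodule B M} (h : N ≤ N') :
    Module.length B (M ⧸ N') ≤ Module.length B (M ⧸ N) := by
  refine Module.length_le_of_surjective (mapQ N N' LinearMap.id h) ?_
  intro x
  obtain ⟨y, rfl⟩ := Submodule.Quotient.mk_surjective _ x
  exact ⟨Submodule.Quotient.mk y, rfl⟩

theorem len_top {M : Type*} [AddCommGroup M] [Module B M] {N : Submodule B M} (h : N = ⊤) :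
    Module.length B (M ⧸ N) = 0 := by
  rw [Module.length_eq_zero_iff, Submodule.Quotient.subsingleton_iff]
  exact h

/-- Artin-Rees for a linear map -/
theorem artinRees [IsNoetherianRing B] {M M' : Type*} [AddCommGroup M] [Module B M]
    [AddCommGroup M'] [Module B M'] [Module.Finite B M] (I : Ideal B)
    (φ : M' →ₗ[B] M) (N : Submodule B M) :
    ∃ c : ℕ, ∀ K : ℕ, (N ⊔ I ^ (K + c) • ⊤).comap φ ≤ N.comap φ ⊔ I ^ K • ⊤ := by
  obtain ⟨c, hc⟩ := Ideal.exists_pow_inf_eq_pow_smul I (LinearMap.range (N.mkQ.comp φ))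
  refine ⟨c, fun K x hx => ?_⟩
  have h1 : N.mkQ (φ x) ∈ I ^ (K + c) • (⊤ : Submodule B (M ⧸ N)) := by
    obtain ⟨a, ha, b, hb, hab⟩ := mem_sup.1 hx
    have e : N.mkQ (φ x) = N.mkQ b := by
      rw [← hab, map_add, mkQ_apply, (Submodule.Quotient.mk_eq_zero N).2 ha, zero_add]
    rw [e]
    have h2 : N.mkQ b ∈ (I ^ (K + c) • (⊤ : Submodule B M)).map N.mkQ := mem_map_of_mem hb
    rw [map_smul''] at h2
    exact smul_mono le_rfl le_top h2
  have h3 : N.mkQ (φ x) ∈ I ^ K • LinearMap.range (N.mkQ.comp φ) := by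
    have h4 : N.mkQ (φ x) ∈ I ^ (K + c) • (⊤ : Submodule B (M ⧸ N)) ⊓
        LinearMap.range (N.mkQ.comp φ) := ⟨h1, x, rfl⟩
    rw [hc (K + c) (Nat.le_add_left c K), Nat.add_sub_cancel] at h4
    exact smul_mono le_rfl inf_le_right h4
  rw [LinearMap.range_eq_map, ← map_smul''] at h3
  obtain ⟨y, hy, hxy⟩ := h3
  have h5 : x - y ∈ N.comap φ := by
    rw [mem_comap, map_sub, ← Submodule.Quotient.eq]
    exact hxy.symm
  have e : x = (x - y) + y := by abel
  rw [e]
  exact add_mem (mem_sup_left h5) (mem_sup_right hy)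

/-- a module on `l` generators killed by `I` -/
theorem len_gen {M : Type*} [AddCommGroup M] [Module B M] {l : ℕ} (g : Fin l → M)
    (hg : span B (Set.range g) = ⊤) (I : Ideal B) (N : Submodule B M) (h : I • ⊤ ≤ N) :
    Module.length B (M ⧸ N) ≤ l * Module.length B (B ⧸ I) := by
  have hk : ∀ i, (I : Submodule B B) ≤
      LinearMap.ker (LinearMap.toSpanSingleton B (M ⧸ N) (N.mkQ (g i))) := by
    intro i r hr
    rw [LinearMap.mem_ker, LinearMap.toSpanSingleton_apply, ← map_smul, mkQ_apply,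
      Submodule.Quotient.mk_eq_zero]
    exact h (smul_mem_smul hr mem_top)
  let ψ : (Fin l → B ⧸ I) →ₗ[B] M ⧸ N :=
    ∑ i, (Submodule.liftQ I _ (hk i)).comp (LinearMap.proj i)
  have hs : Function.Surjective ψ := by
    intro x
    obtain ⟨y, rfl⟩ := Submodule.Quotient.mk_surjective _ x
    have hy : y ∈ span B (Set.range g) := hg ▸ mem_top
    obtain ⟨c, rfl⟩ := (mem_span_range_iff_exists_fun B).1 hy
    refine ⟨fun i => Submodule.Quotient.mk (c i), ?_⟩
    rw [← mkQ_apply, map_sum, LinearMap.sum_apply]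
    refine Finset.sum_congr rfl fun i _ => ?_
    rw [LinearMap.comp_apply, LinearMap.proj_apply, liftQ_apply,
      LinearMap.toSpanSingleton_apply, map_smul]
  refine (Module.length_le_of_surjective ψ hs).trans (le_of_eq ?_)
  rw [Module.length_pi_of_fintype]
  simp

/-- the annihilator of `M / N` against `M / N`, with Artin-Rees -/
theorem len_ann [IsNoetherianRing B] {M : Type*} [AddCommGroup M] [Module B M] [Module.Finite B M]
    {l : ℕ} (g : Fin l → M) (I b : Ideal B) (N : Submodule B M)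
    (hb : ∀ r : B, (∀ i, r • g i ∈ N) → r ∈ b) :
    ∃ c : ℕ, ∀ K : ℕ, Module.length B (B ⧸ (b ⊔ I ^ K)) ≤
      l * Module.length B (M ⧸ (N ⊔ I ^ (K + c) • ⊤)) := by
  let φ : B →ₗ[B] (Fin l → M) := LinearMap.toSpanSingleton B (Fin l → M) g
  obtain ⟨c, hc⟩ := artinRees I φ (Submodule.pi Set.univ fun _ => N)
  refine ⟨c, fun K => ?_⟩
  let ψ : B →ₗ[B] (Fin l → M ⧸ (N ⊔ I ^ (K + c) • ⊤)) :=
    LinearMap.toSpanSingleton B _ fun i => Submodule.Quotient.mk (g i)
  have h1 : LinearMap.ker ψ ≤ (b ⊔ I ^ K : Ideal B) := by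
    intro r hr
    have h2 : ∀ i, r • g i ∈ N ⊔ I ^ (K + c) • ⊤ := by
      intro i
      have := congrFun (LinearMap.mem_ker.1 hr) i
      rw [← Submodule.Quotient.mk_eq_zero, Submodule.Quotient.mk_smul]
      exact this
    choose a ha z hz haz using fun i => mem_sup.1 (h2 i)
    have h3 : z ∈ I ^ (K + c) • (⊤ : Submodule B (Fin l → M)) := by
      rw [← Finset.univ_sum_single z]
      refine sum_mem fun i _ => ?_
      have h4 : LinearMap.single B (fun _ : Fin l => M) i (z i) ∈
          (I ^ (K + c) • (⊤ : Submodule B M)).map (LinearMap.single B (fun _ : Fin l => M) i) :=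
        mem_map_of_mem (hz i)
      rw [map_smul''] at h4
      exact smul_mono le_rfl le_top h4
    have h5 : r ∈ ((Submodule.pi Set.univ fun _ : Fin l => N) ⊔ I ^ (K + c) • ⊤).comap φ := by
      have e : φ r = a + z := funext fun i => (haz i).symm
      rw [mem_comap, e]
      exact add_mem (mem_sup_left fun i _ => ha i) (mem_sup_right h3)
    obtain ⟨s, hs, t, ht, rfl⟩ := mem_sup.1 (hc K h5)
    refine add_mem (mem_sup_left (hb s fun i => hs i (Set.mem_univ i))) (mem_sup_right ?_)
    rwa [Ideal.smul_eq_mul, Ideal.mul_top] at ht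
  refine (len_anti h1).trans ?_
  refine (Module.length_le_of_injective (Submodule.liftQ _ ψ le_rfl) ?_).trans (le_of_eq ?_)
  · rw [← LinearMap.ker_eq_bot]
    exact ker_liftQ_eq_bot _ _ _ le_rfl
  · rw [Module.length_pi_of_fintype]
    simp

end Vale.Agent.P022D.Lech
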