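import Vale.Agent.P022D.Lech.Faith
import Vale.Agent.P177.Bd4.B5

/-!
P022D, Lech trick, part 5: the base ring is regular of dimension `e + 2`.
-/

namespace Vale.Agent.P022D.Lech

open Submodule IsLocalRing

universe u

theorem dim_le_of_integral (A P : Type*) [CommRing A] [CommRing P] [Algebra A P]
    [Algebra.IsIntegral A P] : ringKrullDim P ≤ ringKrullDim A :=
  Order.krullDim_le_of_strictMono (PrimeSpectrum.comap (algebraMap A P)) fun I _ h => by
    have := I.isPrime
    exact Ideal.IsIntegral.comap_lt_comap (R := A) h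

/-- the local ring of a regular ring of dimension `≤ e + c` at a prime of dimension `≥ c` -/
theorem exists_gens {A : Type u} [CommRing A] [IsRegularLocalRing A] {e c : ℕ}
    (hA : ringKrullDim A ≤ ((e + c : ℕ) : WithBot ℕ∞)) (p : Ideal A) [p.IsPrime]
    (hp : (c : WithBot ℕ∞) ≤ ringKrullDim (A ⧸ p)) :
    ∃ (d : ℕ) (X : Fin d → Localization.AtPrime p), d ≤ e ∧
      Ideal.span (Set.range X) = maximalIdeal (Localization.AtPrime p) := by
  have := Vale.Agent.P177.isRegularLocalRing_localization A p (Localization.AtPrime p)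
  obtain ⟨rs, hrs, hl⟩ := Vale.Agent.P177.exists_list_maximalIdeal (Localization.AtPrime p)
  refine ⟨rs.length, rs.get, ?_, ?_⟩
  · rw [IsLocalization.AtPrime.ringKrullDim_eq_height p] at hl
    have h1 : (rs.length : ℕ∞) ≤ p.height := by
      have h2 : ((rs.length : ℕ∞) : WithBot ℕ∞) = (p.height : WithBot ℕ∞) := hl
      exact (WithBot.coe_injective h2).le
    have h3 := (Vale.Agent.P177.height_add_le rs.length c h1
      (by rwa [Module.supportDim_quotient_eq_ringKrullDim])).trans hA
    have h4 : rs.length + c ≤ e + c := by exact_mod_cast h3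
    omega
  · rw [← hrs, Ideal.ofList, Set.range_list_get]

/-- **Faithfulness in the limit** over a regular local ring of dimension `≤ e + c`, for a prime
`P0` of dimension `≥ c` in the support of all `M n / (u n)`. -/
theorem faith_reg {A : Type u} {P : Type*} [CommRing A] [IsRegularLocalRing A]
    [CommRing P] [Algebra A P] [Module.Finite A P] (mP : Ideal P) (a : ℕ)
    (ha : mP ^ a ≤ (maximalIdeal A).map (algebraMap A P)) {e c : ℕ} (he : 0 < e)
    (hA : ringKrullDim A ≤ ((e + c : ℕ) : WithBot ℕ∞))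
    (P0 : Ideal P) [P0.IsPrime] (hP0 : (c : WithBot ℕ∞) ≤ ringKrullDim (P ⧸ P0))
    {ι : Type*} (T M : ι → Type*) [∀ n, CommRing (T n)] [∀ n, Algebra P (T n)]
    [∀ n, AddCommGroup (M n)] [∀ n, Module P (M n)] [∀ n, Module (T n) (M n)]
    [∀ n, IsScalarTower P (T n) (M n)] (u : ∀ n, Fin e → T n) {l : ℕ} (g : ∀ n, Fin l → M n)
    (hg : ∀ n, span P (Set.range (g n)) = ⊤)
    (h0 : ∀ n (r : P), (∀ m : M n, r • m ∈
      Ideal.span (Set.range (u n)) • (⊤ : Submodule (T n) (M n))) → r ∈ P0)
    (f : A) (hf : ∀ j k : ℕ, ∃ n, Soc (M n) (u n) j ∧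
      ∃ i : P, (∀ m : M n, i • m = 0) ∧ algebraMap A P f - i ∈ mP ^ k) : f = 0 := by
  have := Vale.Agent.P177.regular_isDomain A
  obtain ⟨d, X, hd, hX⟩ := exists_gens hA (P0.comap (algebraMap A P))
    (hP0.trans (dim_le_of_integral _ _))
  exact faith mP a ha P0 _ le_rfl X hX hd he T M u g hg h0 f hf

end Vale.Agent.P022D.Lech
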