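import Vale.Agent.P022D.Lech.Len

/-!
P022D, Lech trick, part 2: standard monomials in a local ring and the uniform bound
`len B/(f, b^j, n^K) ≤ o j^(d-1) len B/(b, n^K)`.
-/

namespace Vale.Agent.P022D.Lech

open Submodule IsLocalRing

/-- exponents, ordered by degree and then lexicographically -/
abbrev Ex (d : ℕ) : Type := DegLex (Fin d →₀ ℕ)

/-- the degree -/
def dg {d : ℕ} (α : Ex d) : ℕ := ∑ i, ofDegLex α i

/-- an exponent from a function -/
noncomputable def ex {d : ℕ} (a : Fin d → ℕ) : Ex d := toDegLex (Finsupp.equivFunOnFinite.symm a)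

theorem ex_apply {d : ℕ} (a : Fin d → ℕ) (i : Fin d) : ofDegLex (ex a) i = a i := rfl

theorem ex_ext {d : ℕ} {α β : Ex d} (h : ∀ i, ofDegLex α i = ofDegLex β i) : α = β :=
  ofDegLex_injective (Finsupp.ext h)

theorem add_co {d : ℕ} (α β : Ex d) (i : Fin d) :
    ofDegLex (α + β) i = ofDegLex α i + ofDegLex β i := rfl

theorem lt_of_dg {d : ℕ} {α β : Ex d} (h : dg α < dg β) : α < β := by
  rw [Finsupp.DegLex.lt_iff, Finsupp.degree_eq_sum, Finsupp.degree_eq_sum]
  exact Or.inl h

theorem dg_add {d : ℕ} (α β : Ex d) : dg (α + β) = dg α + dg β := by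
  simp only [dg, add_co, Finset.sum_add_distrib]

theorem dg_zero {d : ℕ} : dg (0 : Ex d) = 0 := Finset.sum_eq_zero fun _ _ => rfl

theorem zero_le_ex {d : ℕ} (α : Ex d) : 0 ≤ α := bot_le (a := α)

theorem exists_add {d : ℕ} {α β : Ex d} (h : ∀ i, ofDegLex α i ≤ ofDegLex β i) :
    ∃ δ : Ex d, β = α + δ :=
  ⟨ex fun i => ofDegLex β i - ofDegLex α i, ex_ext fun i => by
    rw [add_co, ex_apply, Nat.add_sub_cancel' (h i)]⟩

theorem exists_co_lt {d : ℕ} {α β : Ex d} (h : α < β) : ∃ i, ofDegLex α i < ofDegLex β i := by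
  by_contra hn
  obtain ⟨δ, rfl⟩ := exists_add (α := β) (β := α) fun i => not_lt.1 fun hi => hn ⟨i, hi⟩
  exact absurd h (not_lt.2 (le_add_of_nonneg_right (zero_le_ex δ)))

/-- the monomial -/
def mon {T : Type*} [CommMonoid T] {d : ℕ} (X : Fin d → T) (α : Ex d) : T :=
  ∏ i, X i ^ ofDegLex α i

theorem mon_add {T : Type*} [CommMonoid T] {d : ℕ} (X : Fin d → T) (α β : Ex d) :
    mon X (α + β) = mon X α * mon X β := by
  simp only [mon, add_co, pow_add, Finset.prod_mul_distrib]

theorem mon_zero {T : Type*} [CommMonoid T] {d : ℕ} (X : Fin d → T) : mon X 0 = 1 :=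
  Finset.prod_eq_one fun _ _ => pow_zero _

theorem mon_single {T : Type*} [CommMonoid T] {d : ℕ} (X : Fin d → T) (i : Fin d) :
    mon X (ex (Pi.single i 1)) = X i := by
  rw [mon, Finset.prod_eq_single i]
  · rw [ex_apply, Pi.single_eq_same, pow_one]
  · intro k _ hk
    rw [ex_apply, Pi.single_eq_of_ne hk, pow_zero]
  · intro h
    exact absurd (Finset.mem_univ i) h

theorem dg_single {d : ℕ} (i : Fin d) : dg (ex (Pi.single i 1) : Ex d) = 1 := by
  simp [dg, ex_apply]

/-- the exponents of degree `< K` -/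
noncomputable def low (d K : ℕ) : Finset (Ex d) :=
  ((Fintype.piFinset fun _ : Fin d => Finset.range K).image ex).filter fun α => dg α < K

theorem mem_low {d K : ℕ} {α : Ex d} : α ∈ low d K ↔ dg α < K := by
  rw [low, Finset.mem_filter, and_iff_right_iff_imp]
  intro h
  refine Finset.mem_image.2 ⟨fun i => ofDegLex α i, Fintype.mem_piFinset.2 fun i => ?_,
    ex_ext fun i => rfl⟩
  exact Finset.mem_range.2 (lt_of_le_of_lt
    (Finset.single_le_sum (f := fun i => ofDegLex α i) (fun _ _ => Nat.zero_le _)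
      (Finset.mem_univ i)) h)

theorem card_low (d K : ℕ) : (low d K).card ≤ K ^ d := by
  refine (Finset.card_filter_le _ _).trans (Finset.card_image_le.trans (le_of_eq ?_))
  rw [Fintype.card_piFinset]
  simp

variable {B : Type*} [CommRing B] {d : ℕ}

theorem mon_mem_pow (X : Fin d → B) (α : Ex d) :
    mon X α ∈ Ideal.span (Set.range X) ^ dg α := by
  rw [mon, dg, ← Finset.prod_pow_eq_pow_sum]
  exact Ideal.prod_mem_prod fun i _ =>
    Ideal.pow_mem_pow (Ideal.subset_span (Set.mem_range_self i)) _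

theorem pow_le_span (X : Fin d → B) (K : ℕ) :
    Ideal.span (Set.range X) ^ K ≤ Ideal.span (mon X '' {γ | dg γ = K}) := by
  induction K with
  | zero =>
    rw [pow_zero, Ideal.one_eq_top, top_le_iff, Ideal.eq_top_iff_one]
    exact Ideal.subset_span ⟨0, dg_zero, mon_zero X⟩
  | succ K ih =>
    rw [pow_succ]
    refine (Ideal.mul_mono_left ih).trans ?_
    rw [Ideal.span_mul_span']
    refine Ideal.span_mono ?_
    rintro _ ⟨_, ⟨γ, hγ, rfl⟩, _, ⟨i, rfl⟩, rfl⟩
    refine ⟨γ + ex (Pi.single i 1), ?_, ?_⟩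
    · change dg _ = _
      rw [dg_add, dg_single, hγ]
    · rw [mon_add, mon_single]

/-- the ideal of the monomials after `α` -/
def Fgt (X : Fin d → B) (α : Ex d) : Ideal B := Ideal.span (mon X '' {γ | α < γ})

/-- `α` is a leading exponent of `I` -/
def Ld (X : Fin d → B) (I : Ideal B) (α : Ex d) : Prop := mon X α ∈ I ⊔ Fgt X α

theorem mul_mem_Fgt (X : Fin d → B) {α : Ex d} (β : Ex d) {h : B} (hh : h ∈ Fgt X α) :
    h * mon X β ∈ Fgt X (α + β) := by
  induction hh using Submodule.span_induction with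
  | mem x hx =>
    obtain ⟨γ, hγ, rfl⟩ := hx
    rw [← mon_add]
    exact Ideal.subset_span ⟨γ + β, add_lt_add_left hγ β, rfl⟩
  | zero => rw [zero_mul]; exact zero_mem _
  | add x y _ _ hx hy => rw [add_mul]; exact add_mem hx hy
  | smul r x _ hx => rw [smul_eq_mul, mul_assoc]; exact Ideal.mul_mem_left _ _ hx

theorem Fgt_anti (X : Fin d → B) {α β : Ex d} (h : α ≤ β) : Fgt X β ≤ Fgt X α :=
  Ideal.span_mono (Set.image_mono fun _ hγ => lt_of_le_of_lt h hγ)

theorem Fgt_mul (X : Fin d → B) {α β : Ex d} {h k : B} (hh : h ∈ Fgt X α) (hk : k ∈ Fgt X β) :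
    h * k ∈ Fgt X (α + β) := by
  induction hk using Submodule.span_induction with
  | mem x hx =>
    obtain ⟨γ, hγ, rfl⟩ := hx
    exact Fgt_anti X (add_le_add_right (le_of_lt hγ) α) (mul_mem_Fgt X γ hh)
  | zero => rw [mul_zero]; exact zero_mem _
  | add x y _ _ hx hy => rw [mul_add]; exact add_mem hx hy
  | smul r x _ hx => rw [smul_eq_mul, mul_left_comm]; exact Ideal.mul_mem_left _ _ hx

theorem Ld.mul {X : Fin d → B} {I J : Ideal B} {α β : Ex d} (h : Ld X I α) (k : Ld X J β) :
    Ld X (I * J) (α + β) := by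
  obtain ⟨a, ha, x, hx, e1⟩ := mem_sup.1 h
  obtain ⟨b, hb, y, hy, e2⟩ := mem_sup.1 k
  have e : mon X (α + β) = a * b + (x * mon X β + y * mon X α - x * y) := by
    rw [mon_add, ← e1, ← e2]
    ring
  rw [Ld, e]
  refine add_mem (mem_sup_left (Ideal.mul_mem_mul ha hb)) (mem_sup_right ?_)
  refine sub_mem (add_mem (mul_mem_Fgt X β hx) ?_) (Fgt_mul X hx hy)
  rw [add_comm]
  exact mul_mem_Fgt X α hy

theorem Ld.mono {X : Fin d → B} {I J : Ideal B} {α β : Ex d} (h : Ld X I α) (hI : I ≤ J)
    (hα : ∀ i, ofDegLex α i ≤ ofDegLex β i) : Ld X J β := by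
  obtain ⟨δ, rfl⟩ := exists_add hα
  obtain ⟨a, ha, x, hx, e1⟩ := mem_sup.1 h
  rw [Ld, mon_add, ← e1, add_mul]
  exact add_mem (mem_sup_left (Ideal.mul_mem_right _ _ (hI ha)))
    (mem_sup_right (mul_mem_Fgt X δ hx))

theorem Ld.pow {X : Fin d → B} {I : Ideal B} {α : Ex d} (h : Ld X I α) (j : ℕ) :
    Ld X (I ^ j) (ex fun i => j * ofDegLex α i) := by
  induction j with
  | zero =>
    rw [Ld, pow_zero, Ideal.one_eq_top, top_sup_eq]
    exact mem_top
  | succ j ih =>
    rw [pow_succ]
    exact (ih.mul h).mono le_rfl fun i => le_of_eq (by rw [add_co, ex_apply, ex_apply]; ring)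

theorem pow_le_Fgt (X : Fin d → B) {α : Ex d} {K : ℕ} (h : dg α < K) :
    Ideal.span (Set.range X) ^ K ≤ Fgt X α :=
  (pow_le_span X K).trans (Ideal.span_mono (Set.image_mono fun _ hγ =>
    lt_of_dg (lt_of_lt_of_eq h hγ.symm)))

section

variable [IsLocalRing B]

theorem len_one (J : Ideal B) (x : B) (hx : x ∉ J) (hn : ∀ r ∈ maximalIdeal B, r * x ∈ J) :
    Module.length B (B ⧸ J) = 1 + Module.length B (B ⧸ (J ⊔ Ideal.span {x})) := by
  have h := len_step (LinearMap.toSpanSingleton B B x) J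
  have e1 : Submodule.comap (LinearMap.toSpanSingleton B B x) J = maximalIdeal B := by
    refine ((maximalIdeal.isMaximal B).eq_of_le ?_ hn).symm
    rw [Ne, Ideal.eq_top_iff_one]
    intro h1
    exact hx (by simpa using h1)
  have e2 : LinearMap.range (LinearMap.toSpanSingleton B B x) = Ideal.span {x} :=
    (LinearMap.span_singleton_eq_range B B x).symm
  rw [e1, e2] at h
  have e3 : Module.length B (B ⧸ maximalIdeal B) = 1 :=
    Module.length_eq_one_iff.2
      (isSimpleModule_iff_isCoatom.2 (maximalIdeal.isMaximal B).out)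
  exact h.trans (by rw [← e3])

open Classical in
theorem len_chain {ι : Type*} [LinearOrder ι] (x : ι → B) (J : Ideal B) (s : Finset ι)
    (hs : ∀ α ∈ s, ∀ r ∈ maximalIdeal B,
      r * x α ∈ J ⊔ Ideal.span (x '' {γ | γ ∈ s ∧ α < γ})) :
    Module.length B (B ⧸ J) =
      ((s.filter fun α => x α ∉ J ⊔ Ideal.span (x '' {γ | γ ∈ s ∧ α < γ})).card : ℕ∞) +
        Module.length B (B ⧸ (J ⊔ Ideal.span (x '' s))) := by
  induction s using Finset.induction_on_min with
  | empty =>
    rw [Finset.filter_empty, Finset.card_empty, Nat.cast_zero, zero_add, Finset.coe_empty,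
      Set.image_empty, Ideal.span_empty, sup_bot_eq]
  | insert a s ha ih =>
    have e1 : ∀ α ∈ s, {γ | γ ∈ insert a s ∧ α < γ} = {γ | γ ∈ s ∧ α < γ} := by
      intro α hα
      ext γ
      constructor
      · rintro ⟨h1, h2⟩
        rcases Finset.mem_insert.1 h1 with rfl | h1
        · exact absurd h2 (not_lt.2 (ha α hα).le)
        · exact ⟨h1, h2⟩
      · exact fun h => ⟨Finset.mem_insert_of_mem h.1, h.2⟩
    have e2 : {γ | γ ∈ insert a s ∧ a < γ} = (s : Set ι) := by
      ext γ
      constructor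
      · rintro ⟨h1, h2⟩
        rcases Finset.mem_insert.1 h1 with rfl | h1
        · exact absurd h2 (lt_irrefl _)
        · exact h1
      · exact fun h => ⟨Finset.mem_insert_of_mem h, ha γ h⟩
    have has : a ∉ s := fun h => lt_irrefl a (ha a h)
    have e3 : J ⊔ Ideal.span (x '' (insert a s : Finset ι)) =
        (J ⊔ Ideal.span (x '' s)) ⊔ Ideal.span {x a} := by
      rw [Finset.coe_insert, Set.image_insert_eq, Ideal.span_insert, sup_assoc,
        sup_comm (Ideal.span {x a})]
    have e4 : (s.filter fun α => x α ∉ J ⊔ Ideal.span (x '' {γ | γ ∈ insert a s ∧ α < γ})) =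
        s.filter fun α => x α ∉ J ⊔ Ideal.span (x '' {γ | γ ∈ s ∧ α < γ}) :=
      Finset.filter_congr fun α hα => by rw [e1 α hα]
    rw [ih fun α hα r hr => e1 α hα ▸ hs α (Finset.mem_insert_of_mem hα) r hr,
      Finset.filter_insert, e4, e2, e3]
    by_cases h : x a ∈ J ⊔ Ideal.span (x '' s)
    · rw [if_neg (not_not.2 h), sup_eq_left.2 ((Ideal.span_singleton_le_iff_mem _).2 h)]
    · have h1 : ∀ r ∈ maximalIdeal B, r * x a ∈ J ⊔ Ideal.span (x '' s) := by
        intro r hr
        have h2 := hs a (Finset.mem_insert_self a s) r hr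
        rwa [e2] at h2
      rw [if_pos h, Finset.card_insert_of_notMem fun h' => has (Finset.mem_filter.1 h').1,
        len_one _ (x a) h h1]
      push_cast
      rw [add_assoc]

open Classical in
/-- the length is the number of standard monomials -/
theorem len_eq_card (X : Fin d → B) (hX : Ideal.span (Set.range X) = maximalIdeal B)
    (I : Ideal B) (K : ℕ) :
    Module.length B (B ⧸ (I ⊔ maximalIdeal B ^ K)) =
      (((low d K).filter fun α => ¬ Ld X I α).card : ℕ∞) := by
  have e1 : ∀ α ∈ low d K, (I ⊔ maximalIdeal B ^ K) ⊔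
      Ideal.span (mon X '' {γ | γ ∈ low d K ∧ α < γ}) = I ⊔ Fgt X α := by
    intro α hα
    refine le_antisymm (sup_le (sup_le le_sup_left ?_) ?_) (sup_le ?_ ?_)
    · rw [← hX]
      exact (pow_le_Fgt X (mem_low.1 hα)).trans le_sup_right
    · exact (Ideal.span_mono (Set.image_mono fun _ h => h.2)).trans le_sup_right
    · exact le_sup_left.trans le_sup_left
    · refine Ideal.span_le.2 ?_
      rintro _ ⟨γ, hγ, rfl⟩
      by_cases h : γ ∈ low d K
      · exact mem_sup_right (Ideal.subset_span ⟨γ, ⟨h, hγ⟩, rfl⟩)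
      · refine mem_sup_left (mem_sup_right ?_)
        rw [← hX]
        exact Ideal.pow_le_pow_right (not_lt.1 fun h' => h (mem_low.2 h')) (mon_mem_pow X γ)
  rw [len_chain (mon X) _ (low d K), len_top (N := (I ⊔ maximalIdeal B ^ K) ⊔ _), add_zero]
  · congr 2
    exact Finset.filter_congr fun α hα => by rw [e1 α hα, Ld]
  · rcases Nat.eq_zero_or_pos K with rfl | hK
    · rw [pow_zero, Ideal.one_eq_top, sup_top_eq, top_sup_eq]
    · rw [Ideal.eq_top_iff_one]
      exact mem_sup_right (Ideal.subset_span ⟨0, mem_low.2 (lt_of_eq_of_lt dg_zero hK), mon_zero X⟩)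
  · intro α hα r hr
    rw [e1 α hα]
    refine mem_sup_right ?_
    rw [← hX] at hr
    obtain ⟨c, rfl⟩ := (mem_span_range_iff_exists_fun B).1 hr
    rw [Finset.sum_mul]
    refine sum_mem fun i _ => ?_
    rw [smul_eq_mul, mul_assoc, ← mon_single X i, ← mon_add]
    refine Ideal.mul_mem_left _ _ (Ideal.subset_span ⟨_, lt_of_dg ?_, rfl⟩)
    rw [dg_add, dg_single]
    omega

theorem len_pow_le (X : Fin d → B) (hX : Ideal.span (Set.range X) = maximalIdeal B) (K : ℕ) :
    Module.length B (B ⧸ maximalIdeal B ^ K) ≤ ((K ^ d : ℕ) : ℕ∞) := by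
  classical
  have h := len_eq_card X hX ⊥ K
  rw [bot_sup_eq] at h
  rw [h, Nat.cast_le]
  exact (Finset.card_filter_le _ _).trans (card_low d K)

/-- an element of order at most `o` has a leading exponent of degree at most `o` -/
theorem exists_ld (X : Fin d → B) (hX : Ideal.span (Set.range X) = maximalIdeal B) (f : B)
    (o : ℕ) (hf : f ∉ maximalIdeal B ^ (o + 1)) :
    ∃ β : Ex d, dg β ≤ o ∧ Ld X (Ideal.span {f}) β := by
  classical
  by_contra hn
  have h1 := len_eq_card X hX (Ideal.span {f}) (o + 1)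
  have h0 : ∀ α ∈ low d (o + 1), ¬ Ld X (Ideal.span {f}) α :=
    fun α hα h => hn ⟨α, Nat.lt_succ_iff.1 (mem_low.1 hα), h⟩
  rw [Finset.filter_true_of_mem h0] at h1
  have h2 := len_eq_card X hX ⊥ (o + 1)
  rw [bot_sup_eq] at h2
  have h3 := len_step (LinearMap.toSpanSingleton B B f) (maximalIdeal B ^ (o + 1) : Ideal B)
  rw [← LinearMap.span_singleton_eq_range, sup_comm] at h3
  have h4 : 0 < Module.length B (B ⧸ Submodule.comap (LinearMap.toSpanSingleton B B f)
      (maximalIdeal B ^ (o + 1) : Ideal B)) := by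
    rw [Module.length_pos_iff, Submodule.Quotient.nontrivial_iff]
    intro h
    have h5 : (1 : B) ∈ Submodule.comap (LinearMap.toSpanSingleton B B f)
        (maximalIdeal B ^ (o + 1) : Ideal B) := h ▸ mem_top
    exact hf (by simpa using h5)
  have h6 := h2.symm.trans (h3.trans (congrArg _ h1))
  have h7 : (((low d (o + 1)).filter fun α => ¬ Ld X ⊥ α).card : ℕ∞) ≤ (low d (o + 1)).card :=
    Nat.cast_le.2 (Finset.card_filter_le _ _)
  rw [h6] at h7
  have h8 := (add_le_add_left (Order.one_le_iff_pos.2 h4) _).trans h7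
  have h9 : 1 + (low d (o + 1)).card ≤ (low d (o + 1)).card := by exact_mod_cast h8
  omega

/-- the uniform bound -/
theorem lech (X : Fin d → B) (hX : Ideal.span (Set.range X) = maximalIdeal B) (f : B)
    (o : ℕ) (hf : f ∉ maximalIdeal B ^ (o + 1)) (b : Ideal B) (j K : ℕ) (hj : 0 < j) :
    Module.length B (B ⧸ ((Ideal.span {f} ⊔ b ^ j) ⊔ maximalIdeal B ^ K)) ≤
      ((o * j ^ (d - 1) : ℕ) : ℕ∞) * Module.length B (B ⧸ (b ⊔ maximalIdeal B ^ K)) := by
  classical
  obtain ⟨β, hβ, hL⟩ := exists_ld X hX f o hf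
  rw [len_eq_card X hX, len_eq_card X hX, ← Nat.cast_mul, Nat.cast_le]
  set s := (low d K).filter fun α => ¬ Ld X b α
  have key : ∀ i : Fin d, (((low d K).filter fun α => ¬ Ld X (Ideal.span {f} ⊔ b ^ j) α).filter
      fun α : Ex d => ofDegLex α i < ofDegLex β i).card ≤ ofDegLex β i * j ^ (d - 1) * s.card := by
    intro i
    let t : Finset (Fin d → ℕ) :=
      Fintype.piFinset (Function.update (fun _ => Finset.range j) i (Finset.range (ofDegLex β i)))
    have ht : t.card = ofDegLex β i * j ^ (d - 1) := by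
      rw [Fintype.card_piFinset, ← Finset.mul_prod_erase _ _ (Finset.mem_univ i),
        Function.update_self, Finset.card_range,
        Finset.prod_congr rfl (g := fun _ => j) fun k hk => by
          rw [Function.update_of_ne (Finset.ne_of_mem_erase hk), Finset.card_range]]
      simp
    rw [← ht, ← Finset.card_product]
    refine Finset.card_le_card_of_injOn
      (fun α : Ex d => (Function.update (fun k => ofDegLex α k % j) i (ofDegLex α i),
        ex (Function.update (fun k => ofDegLex α k / j) i 0))) ?_ ?_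
    · intro α hα
      obtain ⟨h1, h2⟩ := Finset.mem_filter.1 hα
      obtain ⟨h3, h4⟩ := Finset.mem_filter.1 h1
      have h5 : ∀ k, j * Function.update (fun k => ofDegLex α k / j) i 0 k ≤ ofDegLex α k := by
        intro k
        by_cases hk : k = i
        · rw [hk, Function.update_self]
          exact Nat.zero_le _
        · rw [Function.update_of_ne hk]
          exact Nat.mul_div_le _ _
      refine Finset.mem_product.2 ⟨Fintype.mem_piFinset.2 fun k => ?_,
        Finset.mem_filter.2 ⟨mem_low.2 (lt_of_le_of_lt ?_ (mem_low.1 h3)), fun h => h4 ?_⟩⟩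
      · by_cases hk : k = i
        · rw [hk]
          simp only [Function.update_self]
          exact Finset.mem_range.2 h2
        · simp only [Function.update_of_ne hk]
          exact Finset.mem_range.2 (Nat.mod_lt _ hj)
      · exact Finset.sum_le_sum fun k _ => (Nat.le_mul_of_pos_left _ hj).trans (h5 k)
      · exact (h.pow j).mono le_sup_right h5
    · intro α _ γ _ h
      obtain ⟨h1, h2⟩ := Prod.mk.inj h
      refine ex_ext fun k => ?_
      have h3 := congrFun h1 k
      have h4 := congrArg (fun z : Ex d => ofDegLex z k) h2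
      simp only [ex_apply] at h4
      by_cases hk : k = i
      · rw [hk] at h3 ⊢
        simpa only [Function.update_self] using h3
      · simp only [Function.update_of_ne hk] at h3 h4
        rw [← Nat.div_add_mod (ofDegLex α k) j, ← Nat.div_add_mod (ofDegLex γ k) j, h3, h4]
  have hsub : ((low d K).filter fun α => ¬ Ld X (Ideal.span {f} ⊔ b ^ j) α) ⊆
      Finset.univ.biUnion fun i : Fin d =>
        ((low d K).filter fun α => ¬ Ld X (Ideal.span {f} ⊔ b ^ j) α).filter
          fun α : Ex d => ofDegLex α i < ofDegLex β i := by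
    intro α hα
    by_contra hn
    refine (Finset.mem_filter.1 hα).2 (hL.mono le_sup_left fun i => not_lt.1 fun hi => hn ?_)
    exact Finset.mem_biUnion.2 ⟨i, Finset.mem_univ i, Finset.mem_filter.2 ⟨hα, hi⟩⟩
  refine (Finset.card_le_card hsub).trans (Finset.card_biUnion_le.trans
    ((Finset.sum_le_sum fun i _ => key i).trans ?_))
  rw [← Finset.sum_mul, ← Finset.sum_mul]
  exact Nat.mul_le_mul_right _ (Nat.mul_le_mul_right _ hβ)

end

end Vale.Agent.P022D.Lech
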